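import Vale.Agent.P281.H713.KD.Iface
import Vale.Agent.P281.H708.C0

/-! P281, block KD-C0: `C0Part`. -/

namespace Vale.Agent.P281.H708

/-- **Block KD-C0.** -/
theorem c0Part : Vale.Agent.P281.H713.KD.C0Part := by
  intro n X _ _ _ _ _ _ G hG a B ha
  exact c0 G hG a B ha

end Vale.Agent.P281.H708
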